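import Vale.Agent.P032.Words6.H46.EncD
import Vale.Agent.P032.Words.H151.Pal4
import Vale.Agent.P032.Words.H151.Box1
import Vale.Agent.P032.Words.H151.Box2
import Vale.Agent.P032.Words.H151.Box3
import Vale.Agent.P032.Words.H151.Box4
import Vale.Agent.P032.Words.H151.Box5

/-!
# P032: the box tables without ties in the common form
-/

namespace Vale.Agent.P032.Words6.H227

open Vale.Agent.P032.Words.Trie Vale.Agent.P032.Words6.H46

/-- a palette table is a box table without tie classes -/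
theorem boxTab_of_chkP {A N : ℕ} {nb op nbT opT : List ℕ} {PL : List (List ℕ)} {T : Tr}
    (L P : List ℕ) (hA : A ≤ 10) (hN : N ≤ 40) (h : chkP A N nb op nbT opT PL T = true) :
    BoxTab ⟨A, N, nb, op, nbT, opT, PL, L, P, 0, []⟩ := by
  obtain ⟨cmp, h1, h2⟩ := pal_table hA hN h
  refine ⟨hA.trans (by norm_num), hN, cmp, fun l _ y => y = l, fun h _ => rfl, ?_, ?_⟩
  · intro t h g l S ht hh hg hb hb' _ _ hl
    exact (h2 t h g ht.leg hh hg hb.mem hb'.mem).symm.trans hl
  · intro h g S hh hg he _ hR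
    exact h1 h g hh hg he hR

/-- table 1 -/
def D1 : Dat := ⟨3, 3, B1.nb, B1.op, B1.nbT, B1.opT, B1.PL, B1.L, B1.P, 0, []⟩

theorem tab1 : BoxTab D1 := boxTab_of_chkP B1.L B1.P (by norm_num) (by norm_num) B1.chk

theorem ok1 : okD D1 = true := by decide +kernel

/-- table 2 -/
def D2 : Dat := ⟨4, 7, B2.nb, B2.op, B2.nbT, B2.opT, B2.PL, B2.L, B2.P, 0, []⟩

theorem tab2 : BoxTab D2 := boxTab_of_chkP B2.L B2.P (by norm_num) (by norm_num) B2.chk

theorem ok2 : okD D2 = true := by decide +kernel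

/-- table 3 -/
def D3 : Dat := ⟨4, 6, B3.nb, B3.op, B3.nbT, B3.opT, B3.PL, B3.L, B3.P, 0, []⟩

theorem tab3 : BoxTab D3 := boxTab_of_chkP B3.L B3.P (by norm_num) (by norm_num) B3.chk

theorem ok3 : okD D3 = true := by decide +kernel

/-- table 4 -/
def D4 : Dat := ⟨4, 6, B4.nb, B4.op, B4.nbT, B4.opT, B4.PL, B4.L, B4.P, 0, []⟩

theorem tab4 : BoxTab D4 := boxTab_of_chkP B4.L B4.P (by norm_num) (by norm_num) B4.chk

theorem ok4 : okD D4 = true := by decide +kernel

/-- table 5 -/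
def D5 : Dat := ⟨5, 8, B5.nb, B5.op, B5.nbT, B5.opT, B5.PL, B5.L, B5.P, 0, []⟩

theorem tab5 : BoxTab D5 := boxTab_of_chkP B5.L B5.P (by norm_num) (by norm_num) B5.chk

theorem ok5 : okD D5 = true := by decide +kernel

/-- table 6 -/
def D6 : Dat := ⟨5, 11, B6.nb, B6.op, B6.nbT, B6.opT, B6.PL, B6.L, B6.P, 0, []⟩

theorem tab6 : BoxTab D6 := boxTab_of_chkP B6.L B6.P (by norm_num) (by norm_num) B6.chk

theorem ok6 : okD D6 = true := by decide +kernel

/-- table 7 -/
def D7 : Dat := ⟨5, 10, B7.nb, B7.op, B7.nbT, B7.opT, B7.PL, B7.L, B7.P, 0, []⟩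

theorem tab7 : BoxTab D7 := boxTab_of_chkP B7.L B7.P (by norm_num) (by norm_num) B7.chk

theorem ok7 : okD D7 = true := by decide +kernel

/-- table 8 -/
def D8 : Dat := ⟨5, 10, B8.nb, B8.op, B8.nbT, B8.opT, B8.PL, B8.L, B8.P, 0, []⟩

theorem tab8 : BoxTab D8 := boxTab_of_chkP B8.L B8.P (by norm_num) (by norm_num) B8.chk

theorem ok8 : okD D8 = true := by decide +kernel

/-- table 9 -/
def D9 : Dat := ⟨5, 7, B9.nb, B9.op, B9.nbT, B9.opT, B9.PL, B9.L, B9.P, 0, []⟩

theorem tab9 : BoxTab D9 := boxTab_of_chkP B9.L B9.P (by norm_num) (by norm_num) B9.chk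

theorem ok9 : okD D9 = true := by decide +kernel

/-- table 10 -/
def D10 : Dat := ⟨5, 9, B10.nb, B10.op, B10.nbT, B10.opT, B10.PL, B10.L, B10.P, 0, []⟩

theorem tab10 : BoxTab D10 := boxTab_of_chkP B10.L B10.P (by norm_num) (by norm_num) B10.chk

theorem ok10 : okD D10 = true := by decide +kernel

/-- table 11 -/
def D11 : Dat := ⟨5, 9, B11.nb, B11.op, B11.nbT, B11.opT, B11.PL, B11.L, B11.P, 0, []⟩

theorem tab11 : BoxTab D11 := boxTab_of_chkP B11.L B11.P (by norm_num) (by norm_num) B11.chk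

theorem ok11 : okD D11 = true := by decide +kernel

/-- table 12 -/
def D12 : Dat := ⟨6, 10, B12.nb, B12.op, B12.nbT, B12.opT, B12.PL, B12.L, B12.P, 0, []⟩

theorem tab12 : BoxTab D12 := boxTab_of_chkP B12.L B12.P (by norm_num) (by norm_num) B12.chk

theorem ok12 : okD D12 = true := by decide +kernel

/-- table 14 -/
def D14 : Dat := ⟨6, 12, B14.nb, B14.op, B14.nbT, B14.opT, B14.PL, B14.L, B14.P, 0, []⟩

theorem tab14 : BoxTab D14 := boxTab_of_chkP B14.L B14.P (by norm_num) (by norm_num) B14.chk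

theorem ok14 : okD D14 = true := by decide +kernel

/-- table 15 -/
def D15 : Dat := ⟨6, 12, B15.nb, B15.op, B15.nbT, B15.opT, B15.PL, B15.L, B15.P, 0, []⟩

theorem tab15 : BoxTab D15 := boxTab_of_chkP B15.L B15.P (by norm_num) (by norm_num) B15.chk

theorem ok15 : okD D15 = true := by decide +kernel

/-- table 16 -/
def D16 : Dat := ⟨6, 11, B16.nb, B16.op, B16.nbT, B16.opT, B16.PL, B16.L, B16.P, 0, []⟩

theorem tab16 : BoxTab D16 := boxTab_of_chkP B16.L B16.P (by norm_num) (by norm_num) B16.chk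

theorem ok16 : okD D16 = true := by decide +kernel

/-- table 18 -/
def D18 : Dat := ⟨6, 13, B18.nb, B18.op, B18.nbT, B18.opT, B18.PL, B18.L, B18.P, 0, []⟩

theorem tab18 : BoxTab D18 := boxTab_of_chkP B18.L B18.P (by norm_num) (by norm_num) B18.chk

theorem ok18 : okD D18 = true := by decide +kernel

/-- table 19 -/
def D19 : Dat := ⟨6, 14, B19.nb, B19.op, B19.nbT, B19.opT, B19.PL, B19.L, B19.P, 0, []⟩

theorem tab19 : BoxTab D19 := boxTab_of_chkP B19.L B19.P (by norm_num) (by norm_num) B19.chk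

theorem ok19 : okD D19 = true := by decide +kernel

/-- table 20 -/
def D20 : Dat := ⟨6, 13, B20.nb, B20.op, B20.nbT, B20.opT, B20.PL, B20.L, B20.P, 0, []⟩

theorem tab20 : BoxTab D20 := boxTab_of_chkP B20.L B20.P (by norm_num) (by norm_num) B20.chk

theorem ok20 : okD D20 = true := by decide +kernel

/-- table 21 -/
def D21 : Dat := ⟨6, 8, B21.nb, B21.op, B21.nbT, B21.opT, B21.PL, B21.L, B21.P, 0, []⟩

theorem tab21 : BoxTab D21 := boxTab_of_chkP B21.L B21.P (by norm_num) (by norm_num) B21.chk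

theorem ok21 : okD D21 = true := by decide +kernel

/-- table 23 -/
def D23 : Dat := ⟨7, 11, B23.nb, B23.op, B23.nbT, B23.opT, B23.PL, B23.L, B23.P, 0, []⟩

theorem tab23 : BoxTab D23 := boxTab_of_chkP B23.L B23.P (by norm_num) (by norm_num) B23.chk

theorem ok23 : okD D23 = true := by decide +kernel

/-- table 24 -/
def D24 : Dat := ⟨7, 15, B24.nb, B24.op, B24.nbT, B24.opT, B24.PL, B24.L, B24.P, 0, []⟩

theorem tab24 : BoxTab D24 := boxTab_of_chkP B24.L B24.P (by norm_num) (by norm_num) B24.chk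

theorem ok24 : okD D24 = true := by decide +kernel

/-- table 25 -/
def D25 : Dat := ⟨7, 14, B25.nb, B25.op, B25.nbT, B25.opT, B25.PL, B25.L, B25.P, 0, []⟩

theorem tab25 : BoxTab D25 := boxTab_of_chkP B25.L B25.P (by norm_num) (by norm_num) B25.chk

theorem ok25 : okD D25 = true := by decide +kernel

/-- table 27 -/
def D27 : Dat := ⟨7, 16, B27.nb, B27.op, B27.nbT, B27.opT, B27.PL, B27.L, B27.P, 0, []⟩

theorem tab27 : BoxTab D27 := boxTab_of_chkP B27.L B27.P (by norm_num) (by norm_num) B27.chk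

theorem ok27 : okD D27 = true := by decide +kernel

/-- table 29 -/
def D29 : Dat := ⟨7, 13, B29.nb, B29.op, B29.nbT, B29.opT, B29.PL, B29.L, B29.P, 0, []⟩

theorem tab29 : BoxTab D29 := boxTab_of_chkP B29.L B29.P (by norm_num) (by norm_num) B29.chk

theorem ok29 : okD D29 = true := by decide +kernel

/-- table 31 -/
def D31 : Dat := ⟨7, 17, B31.nb, B31.op, B31.nbT, B31.opT, B31.PL, B31.L, B31.P, 0, []⟩

theorem tab31 : BoxTab D31 := boxTab_of_chkP B31.L B31.P (by norm_num) (by norm_num) B31.chk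

theorem ok31 : okD D31 = true := by decide +kernel

end Vale.Agent.P032.Words6.H227
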